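import Mathlib

/-!
# P126: bodies, polars and covering numbers
-/

namespace Vale.Agent.P126

open Set Finset
open scoped Pointwise

/-- An origin-symmetric convex body of `ℝ^n`. -/
def IsSymBody {n : ℕ} (K : Set (Fin n → ℝ)) : Prop :=
  Convex ℝ K ∧ IsCompact K ∧ (interior K).Nonempty ∧ ∀ x ∈ K, -x ∈ K

/-- The polar for the standard inner product. -/
def polar {n : ℕ} (K : Set (Fin n → ℝ)) : Set (Fin n → ℝ) :=
  {y | ∀ x ∈ K, ∑ u, x u * y u ≤ 1}

/-- The least number of translates of `B` whose union contains `A`. -/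
noncomputable def coveringNumber {n : ℕ} (A B : Set (Fin n → ℝ)) : ℕ :=
  sInf {N : ℕ | ∃ c : Fin N → (Fin n → ℝ), A ⊆ ⋃ i, {y | y - c i ∈ B}}

variable {n : ℕ}

lemma pair_comm (x y : Fin n → ℝ) : ∑ u, x u * y u = ∑ u, y u * x u :=
  Finset.sum_congr rfl fun u _ => mul_comm _ _

lemma convex_polar (A : Set (Fin n → ℝ)) : Convex ℝ (polar A) := by
  intro x hx y hy s t hs ht hst z hz
  have h1 := hx z hz
  have h2 := hy z hz
  simp only [Pi.add_apply, Pi.smul_apply, smul_eq_mul, mul_add, Finset.sum_add_distrib,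
    mul_left_comm, ← Finset.mul_sum]
  nlinarith

lemma zero_mem_polar (A : Set (Fin n → ℝ)) : (0 : Fin n → ℝ) ∈ polar A := by
  intro x _
  simp

lemma neg_mem_polar {A : Set (Fin n → ℝ)} (hA : ∀ x ∈ A, -x ∈ A) {y : Fin n → ℝ}
    (hy : y ∈ polar A) : -y ∈ polar A := by
  intro x hx
  simpa using hy (-x) (hA x hx)

lemma abs_pair_le {A : Set (Fin n → ℝ)} (hA : ∀ x ∈ A, -x ∈ A) {x y : Fin n → ℝ}
    (hy : y ∈ polar A) (hx : x ∈ A) : |∑ u, x u * y u| ≤ 1 := by
  refine abs_le.2 ⟨?_, hy x hx⟩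
  have h := hy (-x) (hA x hx)
  simp only [Pi.neg_apply, neg_mul, Finset.sum_neg_distrib] at h
  linarith

lemma polar_mem_nhds {A : Set (Fin n → ℝ)} (hA : Bornology.IsBounded A) :
    polar A ∈ nhds (0 : Fin n → ℝ) := by
  obtain ⟨C, hC⟩ := isBounded_iff_forall_norm_le.1 hA
  have hr : (0:ℝ) < 1 / ((n:ℝ) * max C 0 + 1) := by positivity
  refine Filter.mem_of_superset (Metric.closedBall_mem_nhds _ hr) (fun y hy x hx => ?_)
  have hy' : ‖y‖ ≤ 1 / ((n:ℝ) * max C 0 + 1) := mem_closedBall_zero_iff.1 hy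
  have hu : ∀ u, x u * y u ≤ max C 0 * (1 / ((n:ℝ) * max C 0 + 1)) := by
    intro u
    have h1 : |x u| ≤ max C 0 := by
      rw [← Real.norm_eq_abs]
      exact ((norm_le_pi_norm x u).trans (hC x hx)).trans (le_max_left _ _)
    have h2 : |y u| ≤ 1 / ((n:ℝ) * max C 0 + 1) := by
      simpa [Real.norm_eq_abs] using (norm_le_pi_norm y u).trans hy'
    calc x u * y u ≤ |x u * y u| := le_abs_self _
      _ = |x u| * |y u| := abs_mul _ _
      _ ≤ _ := mul_le_mul h1 h2 (abs_nonneg _) (le_max_right _ _)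
  refine (Finset.sum_le_sum fun u _ => hu u).trans ?_
  rw [Finset.sum_const, Finset.card_univ, Fintype.card_fin, nsmul_eq_mul, ← mul_assoc,
    mul_one_div, div_le_one (by positivity)]
  linarith

lemma isCompact_polar {A : Set (Fin n → ℝ)} (hA : A ∈ nhds (0 : Fin n → ℝ)) :
    IsCompact (polar A) := by
  obtain ⟨r, hr, hsub⟩ := Metric.nhds_basis_closedBall.mem_iff.1 hA
  refine Metric.isCompact_of_isClosed_isBounded ?_ (isBounded_iff_forall_norm_le.2 ⟨1 / r, ?_⟩)
  · have : polar A = ⋂ x ∈ A, {y | ∑ u, x u * y u ≤ 1} := by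
      ext y; simp [polar]
    rw [this]
    exact isClosed_biInter fun x _ => isClosed_le (by fun_prop) continuous_const
  · intro y hy
    refine (pi_norm_le_iff_of_nonneg (by positivity)).2 (fun u => ?_)
    have key : ∀ s : ℝ, |s| = r → s * y u ≤ 1 := by
      intro s hs
      have hm : (Pi.single u s : Fin n → ℝ) ∈ A := by
        refine hsub (mem_closedBall_zero_iff.2 ?_)
        rw [Pi.norm_single, Real.norm_eq_abs, hs]
      have h := hy _ hm
      rw [Finset.sum_eq_single u (fun v _ hv => by simp [Pi.single_eq_of_ne hv])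
        (fun h => absurd (Finset.mem_univ u) h)] at h
      simpa using h
    have h1 := key r (abs_of_pos hr)
    have h2 := key (-r) (by rw [abs_neg, abs_of_pos hr])
    rw [Real.norm_eq_abs, abs_le, neg_le, le_div_iff₀ hr, le_div_iff₀ hr]
    constructor <;> linarith

/-- Every linear functional is a pairing. -/
lemma functional_eq (f : (Fin n → ℝ) →L[ℝ] ℝ) (x : Fin n → ℝ) :
    f x = ∑ u, x u * f (Pi.single u 1) := by
  conv_lhs => rw [pi_eq_sum_univ' x]
  rw [map_sum]
  simp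

/-- The bipolar theorem, in the form used below. -/
lemma mem_smul_of_pair_le {A : Set (Fin n → ℝ)} (hconv : Convex ℝ A) (hclosed : IsClosed A)
    (h0 : (0 : Fin n → ℝ) ∈ A) {t : ℝ} (ht : 0 < t) {z : Fin n → ℝ}
    (h : ∀ y ∈ polar A, ∑ u, z u * y u ≤ t) : z ∈ t • A := by
  rw [mem_smul_set_iff_inv_smul_mem₀ ht.ne']
  by_contra hz
  obtain ⟨f, s, hlt, hgt⟩ := geometric_hahn_banach_closed_point hconv hclosed hz
  have hs : 0 < s := by simpa using hlt 0 h0
  have hy : (fun u => f (Pi.single u 1) / s) ∈ polar A := by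
    intro x hx
    have h1 := functional_eq f x
    simp only [mul_div_assoc', ← Finset.sum_div]
    rw [← h1, div_le_one hs]
    exact (hlt x hx).le
  have h2 := h _ hy
  simp only [mul_div_assoc', ← Finset.sum_div] at h2
  rw [← functional_eq f z, div_le_iff₀ hs] at h2
  rw [map_smul, smul_eq_mul] at hgt
  have h3 := mul_le_mul_of_nonneg_left h2 (inv_nonneg.2 ht.le)
  rw [← mul_assoc, inv_mul_cancel₀ ht.ne', one_mul] at h3
  linarith

lemma polar_polar {A : Set (Fin n → ℝ)} (hconv : Convex ℝ A) (hclosed : IsClosed A)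
    (h0 : (0 : Fin n → ℝ) ∈ A) : polar (polar A) = A := by
  ext z
  constructor
  · intro hz
    have h := mem_smul_of_pair_le hconv hclosed h0 one_pos
      (fun y hy => by rw [pair_comm]; exact hz y hy)
    rwa [one_smul] at h
  · intro hz y hy
    rw [pair_comm]
    exact hy z hz

lemma polar_smul {a : ℝ} (ha : a ≠ 0) (A : Set (Fin n → ℝ)) :
    polar (a • A) = a⁻¹ • polar A := by
  ext y
  rw [mem_smul_set_iff_inv_smul_mem₀ (inv_ne_zero ha), inv_inv]
  constructor
  · intro hy x hx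
    have h := hy (a • x) (smul_mem_smul_set hx)
    simpa [mul_assoc, mul_left_comm] using h
  · rintro hy x ⟨w, hw, rfl⟩
    have h := hy w hw
    simpa [mul_assoc, mul_left_comm] using h

lemma exists_cover {A B : Set (Fin n → ℝ)} (hA : IsCompact A) (hB : B ∈ nhds 0) :
    ∃ c : Fin (coveringNumber A B) → (Fin n → ℝ), A ⊆ ⋃ i, {y | y - c i ∈ B} := by
  have hne : {N : ℕ | ∃ c : Fin N → (Fin n → ℝ), A ⊆ ⋃ i, {y | y - c i ∈ B}}.Nonempty := by
    obtain ⟨t, _, htA⟩ := hA.elim_nhds_subcover (fun x => {y | y - x ∈ B}) (fun x _ =>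
      (continuous_id.sub continuous_const).continuousAt.preimage_mem_nhds (by simpa using hB))
    refine ⟨t.card, fun i => (t.equivFin.symm i : Fin n → ℝ), fun y hy => ?_⟩
    obtain ⟨x, hx, hxy⟩ := mem_iUnion₂.1 (htA hy)
    exact mem_iUnion.2 ⟨t.equivFin ⟨x, hx⟩, by simpa using hxy⟩
  exact Nat.sInf_mem hne

lemma coveringNumber_smul {a : ℝ} (ha : a ≠ 0) (A B : Set (Fin n → ℝ)) :
    coveringNumber (a • A) (a • B) = coveringNumber A B := by
  have key : ∀ (b : ℝ) (A B : Set (Fin n → ℝ)) (N : ℕ),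
      (∃ c : Fin N → (Fin n → ℝ), A ⊆ ⋃ i, {y | y - c i ∈ B}) →
      ∃ c : Fin N → (Fin n → ℝ), b • A ⊆ ⋃ i, {y | y - c i ∈ b • B} := by
    rintro b A B N ⟨c, hc⟩
    refine ⟨fun i => b • c i, ?_⟩
    rintro z ⟨x, hx, rfl⟩
    obtain ⟨i, hi⟩ := mem_iUnion.1 (hc hx)
    refine mem_iUnion.2 ⟨i, ?_⟩
    show b • x - b • c i ∈ b • B
    rw [← smul_sub]
    exact smul_mem_smul_set hi
  unfold coveringNumber
  congr 1
  ext N
  exact ⟨fun h => by simpa [smul_smul, ha] using key a⁻¹ _ _ N h, key a A B N⟩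

end Vale.Agent.P126
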