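import Mathlib

/-!
# P126: short descriptions of separated sets

A point of a separated set is described by few tilts from a fixed net of functionals. `pot` is
the log-partition function seen from a point `x`, and `Deep θ E F` says that no tilt `t • f`
lowers it at `F` by more than `θ * t + E`. A phase of greedy steps is replaced by a single net
element; either `E` drops by a multiple of the length of the phase, or the new `E` is a small
multiple of that length at a slightly larger `θ`.
-/

namespace Vale.Agent.P126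

open Finset

variable {X : Type*}

/-- The log-partition function seen from `x`. -/
noncomputable def pot (S : Finset X) (x : X) (F : X → ℝ) : ℝ :=
  Real.log (∑ y ∈ S, Real.exp (F y - F x))

/-- The mean for the weights `exp F`. -/
noncomputable def mean (S : Finset X) (F g : X → ℝ) : ℝ :=
  (∑ y ∈ S, Real.exp (F y) * g y) / ∑ y ∈ S, Real.exp (F y)

/-- No tilt by `t • f` lowers the potential by more than `θ * t + E`. -/
def Deep (S : Finset X) (x : X) (P : Set (X → ℝ)) (θ E : ℝ) (F : X → ℝ) : Prop :=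
  ∀ t : ℝ, 0 ≤ t → ∀ f ∈ P, pot S x F - θ * t - E ≤ pot S x (F + t • f)

lemma exp_le_quad {u : ℝ} (hu : |u| ≤ 1) : Real.exp u ≤ 1 + u + u ^ 2 := by
  have h := (abs_le.1 (Real.abs_exp_sub_one_sub_id_le hu)).2
  linarith

section potential

variable {S : Finset X} (hS : S.Nonempty) (x : X)

include hS

lemma sum_exp_pos (F : X → ℝ) : 0 < ∑ y ∈ S, Real.exp (F y) :=
  Finset.sum_pos (fun _ _ => Real.exp_pos _) hS

lemma sum_shift (F g : X → ℝ) (c : ℝ) :
    ∑ y ∈ S, Real.exp (F y - F x) * (g y - c) =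
      (∑ y ∈ S, Real.exp (F y - F x)) * (mean S F g - c) := by
  have h : ∀ y, Real.exp (F y - F x) = Real.exp (-F x) * Real.exp (F y) := fun y => by
    rw [← Real.exp_add]; congr 1; ring
  have hm : mean S F g * ∑ y ∈ S, Real.exp (F y) = ∑ y ∈ S, Real.exp (F y) * g y :=
    div_mul_cancel₀ _ (sum_exp_pos hS F).ne'
  simp only [h, mul_sub, Finset.sum_sub_distrib, ← Finset.mul_sum, ← Finset.sum_mul, mul_assoc]
  rw [← hm]
  ring

lemma pot_add_ge (F G : X → ℝ) : pot S x F + (mean S F G - G x) ≤ pot S x (F + G) := by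
  set μ := mean S F G - G x with hμ
  have hW : 0 < ∑ y ∈ S, Real.exp (F y - F x) :=
    Finset.sum_pos (fun _ _ => Real.exp_pos _) hS
  have h : (∑ y ∈ S, Real.exp (F y - F x)) * Real.exp μ ≤
      ∑ y ∈ S, Real.exp ((F + G) y - (F + G) x) := by
    have h0 := sum_shift hS x F G (mean S F G)
    rw [sub_self, mul_zero] at h0
    calc (∑ y ∈ S, Real.exp (F y - F x)) * Real.exp μ
        = ∑ y ∈ S, Real.exp (F y - F x) * Real.exp μ +
            Real.exp μ * ∑ y ∈ S, Real.exp (F y - F x) * (G y - mean S F G) := by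
          rw [h0, mul_zero, add_zero, Finset.sum_mul]
      _ = ∑ y ∈ S, Real.exp (F y - F x) * (Real.exp μ * (1 + (G y - mean S F G))) := by
          rw [Finset.mul_sum, ← Finset.sum_add_distrib]
          exact Finset.sum_congr rfl fun y _ => by ring
      _ ≤ _ := by
          refine Finset.sum_le_sum fun y _ => ?_
          have e : Real.exp ((F + G) y - (F + G) x) =
              Real.exp (F y - F x) * (Real.exp μ * Real.exp (G y - mean S F G)) := by
            rw [← Real.exp_add, ← Real.exp_add, hμ]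
            congr 1
            simp only [Pi.add_apply]
            ring
          rw [e]
          refine mul_le_mul_of_nonneg_left (mul_le_mul_of_nonneg_left ?_ (Real.exp_pos _).le)
            (Real.exp_pos _).le
          linarith [Real.add_one_le_exp (G y - mean S F G)]
  have h2 := Real.log_le_log (mul_pos hW (Real.exp_pos _)) h
  rwa [Real.log_mul hW.ne' (Real.exp_pos _).ne', Real.log_exp] at h2

lemma pot_add_le (F G : X → ℝ) {r : ℝ} (hG : ∀ y ∈ S, |G y - G x| ≤ r) (hr1 : r ≤ 1) :
    pot S x (F + G) ≤ pot S x F + (mean S F G - G x) + r ^ 2 := by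
  have hW : 0 < ∑ y ∈ S, Real.exp (F y - F x) :=
    Finset.sum_pos (fun _ _ => Real.exp_pos _) hS
  have h : ∑ y ∈ S, Real.exp ((F + G) y - (F + G) x) ≤
      (∑ y ∈ S, Real.exp (F y - F x)) * Real.exp ((mean S F G - G x) + r ^ 2) := by
    calc ∑ y ∈ S, Real.exp ((F + G) y - (F + G) x)
        ≤ ∑ y ∈ S, (Real.exp (F y - F x) * (1 + r ^ 2) +
            Real.exp (F y - F x) * (G y - G x)) := by
          refine Finset.sum_le_sum fun y hy => ?_
          have e : Real.exp ((F + G) y - (F + G) x) =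
              Real.exp (F y - F x) * Real.exp (G y - G x) := by
            rw [← Real.exp_add]; congr 1; simp only [Pi.add_apply]; ring
          rw [e, ← mul_add]
          refine mul_le_mul_of_nonneg_left ?_ (Real.exp_pos _).le
          have h1 := exp_le_quad ((hG y hy).trans hr1)
          have h2 : (G y - G x) ^ 2 ≤ r ^ 2 := by
            rw [← sq_abs]
            exact pow_le_pow_left₀ (abs_nonneg _) (hG y hy) 2
          linarith
      _ = (∑ y ∈ S, Real.exp (F y - F x)) * (1 + ((mean S F G - G x) + r ^ 2)) := by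
          rw [Finset.sum_add_distrib, ← Finset.sum_mul, sum_shift hS x F G (G x)]
          ring
      _ ≤ _ := mul_le_mul_of_nonneg_left
          (by linarith [Real.add_one_le_exp ((mean S F G - G x) + r ^ 2)]) hW.le
  have h2 := Real.log_le_log (Finset.sum_pos (fun _ _ => Real.exp_pos _) hS) h
  rw [Real.log_mul hW.ne' (Real.exp_pos _).ne', Real.log_exp] at h2
  unfold pot
  linarith

lemma pot_le_of_close (F F' : X → ℝ) {e : ℝ}
    (h : ∀ y ∈ S, F' y - F' x ≤ F y - F x + e) : pot S x F' ≤ pot S x F + e := by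
  have hW : 0 < ∑ y ∈ S, Real.exp (F y - F x) :=
    Finset.sum_pos (fun _ _ => Real.exp_pos _) hS
  have h1 : ∑ y ∈ S, Real.exp (F' y - F' x) ≤
      (∑ y ∈ S, Real.exp (F y - F x)) * Real.exp e := by
    rw [Finset.sum_mul]
    refine Finset.sum_le_sum fun y hy => ?_
    rw [← Real.exp_add]
    exact Real.exp_le_exp.2 (h y hy)
  have h2 := Real.log_le_log (Finset.sum_pos (fun _ _ => Real.exp_pos _) hS) h1
  rwa [Real.log_mul hW.ne' (Real.exp_pos _).ne', Real.log_exp] at h2

omit hS in
lemma mean_smul (F g : X → ℝ) (t : ℝ) : mean S F (t • g) = t * mean S F g := by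
  simp only [mean, Pi.smul_apply, smul_eq_mul, ← mul_div_assoc, Finset.mul_sum, mul_left_comm]

lemma mean_mono (F g g' : X → ℝ) (h : ∀ y ∈ S, g y ≤ g' y) : mean S F g ≤ mean S F g' :=
  div_le_div_of_nonneg_right
    (Finset.sum_le_sum fun y hy => mul_le_mul_of_nonneg_left (h y hy) (Real.exp_pos _).le)
    (sum_exp_pos hS F).le

lemma mean_sub_const (F g : X → ℝ) (c : ℝ) :
    mean S F (fun y => g y - c) = mean S F g - c := by
  have h := (sum_exp_pos hS F).ne'
  unfold mean
  simp only [mul_sub, Finset.sum_sub_distrib, ← Finset.sum_mul]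
  field_simp

end potential

lemma comb_mem {P : Set (X → ℝ)} (hconv : Convex ℝ P) {a b : ℝ} (ha : 0 ≤ a) (hb : 0 ≤ b)
    {f g : X → ℝ} (hf : f ∈ P) (hg : g ∈ P) : ∃ h ∈ P, a • f + b • g = (a + b) • h := by
  rcases eq_or_lt_of_le (add_nonneg ha hb) with h0 | h0
  · obtain ⟨ha', hb'⟩ := (add_eq_zero_iff_of_nonneg ha hb).1 h0.symm
    exact ⟨f, hf, by simp [ha', hb']⟩
  · refine ⟨(a / (a + b)) • f + (b / (a + b)) • g,
      hconv hf hg (div_nonneg ha h0.le) (div_nonneg hb h0.le)
        (by rw [← add_div, div_self h0.ne']), ?_⟩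
    rw [smul_add, smul_smul, smul_smul, mul_div_cancel₀ _ h0.ne', mul_div_cancel₀ _ h0.ne']

section phase

variable {S : Finset X} {x : X} {P : Set (X → ℝ)} {m : ℕ} {ψ : Fin m → X → ℝ}

lemma deep_nonneg {θ E : ℝ} {F : X → ℝ} (hne : P.Nonempty) (h : Deep S x P θ E F) : 0 ≤ E := by
  obtain ⟨f, hf⟩ := hne
  have h0 := h 0 le_rfl f hf
  simp at h0
  exact h0

/-- A phase of greedy steps, replaced by one net element. -/
lemma exists_phase (hx : x ∈ S) (hconv : Convex ℝ P) (hψ : ∀ i, ψ i ∈ P) (hm : 1 ≤ m)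
    {γ δ : ℝ} (hγ : 0 < γ) (hγ1 : γ ≤ 1) (hδ : δ ≤ γ / 16)
    (happ : ∀ f ∈ P, ∃ i, ∀ y ∈ S, |f y - f x - (ψ i y - ψ i x)| ≤ δ)
    (hR : ∀ f ∈ P, ∀ y ∈ S, |f y - f x| ≤ 4)
    {θ E : ℝ} {F : X → ℝ} (hF : Deep S x P θ E F) :
    ∃ i, ∃ k : ℕ, (k : ℝ) * (γ / 64) * γ ≤ 2 * E ∧
      Deep S x P (θ + 2 * γ) (2 * ((k * (γ / 64)) * δ)) (F + ((k : ℝ) * (γ / 64)) • ψ i) ∧
      Deep S x P θ (E - (k * (γ / 64)) * (γ / 2)) (F + ((k : ℝ) * (γ / 64)) • ψ i) := by
  classical
  have hS : S.Nonempty := ⟨x, hx⟩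
  set η := γ / 64 with hη
  have hη0 : 0 < η := by positivity
  let Valid : ℕ → Prop := fun k => ∃ fb ∈ P,
    pot S x (F + ((k : ℝ) * η) • fb) ≤ pot S x F - (k * η) * (θ + 3 * γ / 4)
  have hE0 : 0 ≤ E := deep_nonneg ⟨_, hψ ⟨0, hm⟩⟩ hF
  have short : ∀ k, Valid k → (k : ℝ) * η * γ ≤ 2 * E := by
    rintro k ⟨fb, hfb, hk⟩
    have h := hF ((k : ℝ) * η) (by positivity) fb hfb
    linarith
  obtain ⟨N, hN⟩ := exists_nat_gt (2 * E / (η * γ))
  have hstop : ∃ k : ℕ, ∃ fb ∈ P,
      pot S x (F + ((k : ℝ) * η) • fb) ≤ pot S x F - (k * η) * (θ + 3 * γ / 4) ∧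
      ∀ i, ψ i x - mean S (F + ((k : ℝ) * η) • fb) (ψ i) ≤ θ + γ := by
    by_contra hno
    push Not at hno
    have grow : ∀ k, Valid k := by
      intro k
      induction k with
      | zero => exact ⟨ψ ⟨0, hm⟩, hψ _, by simp⟩
      | succ k ih =>
        obtain ⟨fb, hfb, hk⟩ := ih
        obtain ⟨i, hi⟩ := hno k fb hfb hk
        obtain ⟨h, hh, hsum⟩ := comb_mem hconv (by positivity : 0 ≤ (k : ℝ) * η) hη0.le hfb (hψ i)
        refine ⟨h, hh, ?_⟩
        have e : F + (((k + 1 : ℕ) : ℝ) * η) • h = (F + ((k : ℝ) * η) • fb) + η • ψ i := by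
          rw [add_assoc, hsum]
          congr 2
          push_cast; ring
        rw [e]
        have hr : ∀ y ∈ S, |(η • ψ i) y - (η • ψ i) x| ≤ η * 4 := by
          intro y hy
          simp only [Pi.smul_apply, smul_eq_mul, ← mul_sub, abs_mul, abs_of_pos hη0]
          exact mul_le_mul_of_nonneg_left (hR _ (hψ i) y hy) hη0.le
        refine (pot_add_le hS x _ _ hr (by linarith)).trans ?_
        rw [mean_smul, Pi.smul_apply, smul_eq_mul, ← mul_sub]
        have h1 : η * (mean S (F + ((k : ℝ) * η) • fb) (ψ i) - ψ i x) ≤ η * (-(θ + γ)) :=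
          mul_le_mul_of_nonneg_left (by linarith) hη0.le
        have h2 : (η * 4) ^ 2 = η * (γ / 4) := by rw [hη]; ring
        push_cast
        linarith
    have h := short N (grow N)
    rw [div_lt_iff₀ (by positivity)] at hN
    linarith
  obtain ⟨k, fb, hfb, hk, hstop⟩ := hstop
  obtain ⟨i, hi⟩ := happ fb hfb
  set t0 := (k : ℝ) * η with ht0
  have ht00 : 0 ≤ t0 := by positivity
  have hclose : ∀ G : X → ℝ,
      pot S x (F + t0 • fb + G) ≤ pot S x (F + t0 • ψ i + G) + t0 * δ ∧
      pot S x (F + t0 • ψ i + G) ≤ pot S x (F + t0 • fb + G) + t0 * δ := by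
    intro G
    constructor <;> refine pot_le_of_close hS x _ _ fun y hy => ?_
    · have h := mul_le_mul_of_nonneg_left (abs_le.1 (hi y hy)).2 ht00
      simp only [Pi.add_apply, Pi.smul_apply, smul_eq_mul]
      linarith
    · have h := mul_le_mul_of_nonneg_left (abs_le.1 (hi y hy)).1 ht00
      simp only [Pi.add_apply, Pi.smul_apply, smul_eq_mul]
      linarith
  refine ⟨i, k, short k ⟨fb, hfb, hk⟩, ?_, ?_⟩
  · intro t ht f hf
    obtain ⟨j, hj⟩ := happ f hf
    have h1 := pot_add_ge hS x (F + t0 • fb) (t • f)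
    rw [mean_smul, Pi.smul_apply, smul_eq_mul, ← mul_sub] at h1
    have h2 : mean S (F + t0 • fb) (ψ j) - ψ j x - δ ≤ mean S (F + t0 • fb) f - f x := by
      have h := mean_mono hS (F + t0 • fb) (fun y => ψ j y - (ψ j x + δ)) (fun y => f y - f x)
        fun y hy => by linarith [(abs_le.1 (hj y hy)).1]
      rw [mean_sub_const hS, mean_sub_const hS] at h
      linarith
    have h3 : t * (-(θ + 2 * γ)) ≤ t * (mean S (F + t0 • fb) f - f x) :=
      mul_le_mul_of_nonneg_left (by linarith [hstop j]) ht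
    have h4 := (hclose 0).2
    simp only [add_zero] at h4
    have h5 := (hclose (t • f)).1
    linarith
  · intro t ht f hf
    obtain ⟨h, hh, hsum⟩ := comb_mem hconv ht00 ht (hψ i) hf
    have h1 := hF (t0 + t) (add_nonneg ht00 ht) h hh
    rw [← hsum, ← add_assoc] at h1
    have h4 := (hclose 0).2
    simp only [add_zero] at h4
    have h6 : t0 * δ ≤ t0 * (γ / 16) := mul_le_mul_of_nonneg_left hδ ht00
    have h7 : 0 ≤ t0 * γ := by positivity
    linarith

end phase

open Classical in
/-- The tilts made of at most `n` symbols. -/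
noncomputable def states {m : ℕ} (η : ℝ) (ψ : Fin m → X → ℝ) (K : ℕ) : ℕ → Finset (X → ℝ)
  | 0 => {0}
  | n + 1 => ((states η ψ K n) ×ˢ (Finset.univ : Finset (Fin m × Fin (K + 1)))).image
      fun p => p.1 + ((p.2.2 : ℕ) * η : ℝ) • ψ p.2.1

lemma card_states_le {m : ℕ} (η : ℝ) (ψ : Fin m → X → ℝ) (K n : ℕ) :
    (states η ψ K n).card ≤ (m * (K + 1)) ^ n := by
  induction n with
  | zero => simp [states]
  | succ n ih =>
    classical
    rw [states, pow_succ]
    refine Finset.card_image_le.trans ?_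
    rw [Finset.card_product, Finset.card_univ, Fintype.card_prod, Fintype.card_fin,
      Fintype.card_fin]
    exact Nat.mul_le_mul_right _ ih

lemma add_mem_states {m : ℕ} (η : ℝ) (ψ : Fin m → X → ℝ) (K n : ℕ) {F : X → ℝ}
    (hF : F ∈ states η ψ K n) (i : Fin m) {k : ℕ} (hk : k ≤ K) :
    F + ((k : ℝ) * η) • ψ i ∈ states η ψ K (n + 1) := by
  classical
  rw [states]
  exact Finset.mem_image.2 ⟨(F, i, ⟨k, Nat.lt_succ_of_le hk⟩),
    Finset.mem_product.2 ⟨hF, Finset.mem_univ _⟩, rfl⟩

lemma states_mono {m : ℕ} (hm : 1 ≤ m) (η : ℝ) (ψ : Fin m → X → ℝ) (K : ℕ) {n n' : ℕ}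
    (h : n ≤ n') : states η ψ K n ⊆ states η ψ K n' := by
  induction n', h using Nat.le_induction with
  | base => exact subset_rfl
  | succ n' _ ih =>
    refine ih.trans fun F hF => ?_
    simpa using add_mem_states η ψ K n' hF ⟨0, hm⟩ (Nat.zero_le K)

/-- Most points `x` have, for every net functional, many points that are not much below `x`. -/
lemma many_good (S : Finset X) {m : ℕ} (ψ : Fin m → X → ℝ) {h : ℝ} (hh : 0 ≤ h) :
    S.card ≤ 2 * (S.filter fun x => ∀ i,
      S.card / (2 * m) ≤ (S.filter fun y => ψ i x - h ≤ ψ i y).card).card := by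
  classical
  set q := S.card / (2 * m) with hq
  set G := S.filter fun x => ∀ i, q ≤ (S.filter fun y => ψ i x - h ≤ ψ i y).card with hG
  have hbad : ∀ i, (S.filter fun x => (S.filter fun y => ψ i x - h ≤ ψ i y).card < q).card ≤ q := by
    intro i
    set B := S.filter fun x => (S.filter fun y => ψ i x - h ≤ ψ i y).card < q with hB
    rcases B.eq_empty_or_nonempty with he | hne
    · simp [he]
    · obtain ⟨x0, hx0, hmin⟩ := B.exists_min_image (fun x => ψ i x) hne
      have h1 := (Finset.mem_filter.1 hx0).2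
      refine le_trans (Finset.card_le_card ?_) h1.le
      intro x hx
      exact Finset.mem_filter.2 ⟨(Finset.mem_filter.1 hx).1, by have := hmin x hx; linarith⟩
  have hsub : S \ G ⊆ (Finset.univ : Finset (Fin m)).biUnion
      (fun i => S.filter fun x => (S.filter fun y => ψ i x - h ≤ ψ i y).card < q) := by
    intro x hx
    simp only [hG, Finset.mem_sdiff, Finset.mem_filter, not_and, not_forall, not_le] at hx
    obtain ⟨i, hi⟩ := hx.2 hx.1
    exact Finset.mem_biUnion.2 ⟨i, Finset.mem_univ i, Finset.mem_filter.2 ⟨hx.1, hi⟩⟩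
  have h2 : (S \ G).card ≤ m * q := by
    refine (Finset.card_le_card hsub).trans (Finset.card_biUnion_le.trans ?_)
    refine (Finset.sum_le_sum fun i _ => hbad i).trans ?_
    simp
  have h3 : 2 * m * q ≤ S.card := Nat.mul_div_le _ _
  have h4 : (S \ G).card + G.card = S.card :=
    Finset.card_sdiff_add_card_eq_card (Finset.filter_subset _ _)
  have h5 : 2 * (S \ G).card ≤ S.card := by
    calc 2 * (S \ G).card ≤ 2 * (m * q) := by omega
      _ = 2 * m * q := by ring
      _ ≤ S.card := h3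
  omega

/-- A set of range at most `4` whose points are told apart by `1` has few points. -/
theorem log_separated_card_le (S : Finset X) (P : Set (X → ℝ)) (hconv : Convex ℝ P)
    (hsymm : ∀ f ∈ P, -f ∈ P) {m : ℕ} (hm : 1 ≤ m) (ψ : Fin m → X → ℝ) (hψ : ∀ i, ψ i ∈ P)
    {J Q : ℕ} (hJ : 1 ≤ J) (hQ : 1 ≤ Q) {γ : ℝ} (hγ : γ = 1 / (50 * ((J : ℝ) + 1)))
    (hQJ : Real.log (4 * m) ≤ γ ^ 2 * (Q : ℝ) ^ J)
    (happ : ∀ f ∈ P, ∃ i, ∀ x ∈ S, ∀ y ∈ S, |f y - f x - (ψ i y - ψ i x)| ≤ γ / 16)
    (hR : ∀ f ∈ P, ∀ x ∈ S, ∀ y ∈ S, |f y - f x| ≤ 4)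
    (hsep : ∀ x ∈ S, ∀ y ∈ S, x ≠ y → ∃ f ∈ P, 1 < f x - f y) :
    Real.log S.card ≤ 3 * J * Q * ((128 / γ ^ 2 + 3) * Real.log (4 * m)) := by
  classical
  have hγ0 : 0 < γ := by rw [hγ]; positivity
  have hJR : (1 : ℝ) ≤ J := by exact_mod_cast hJ
  have hγmul : γ * (50 * ((J : ℝ) + 1)) = 1 := by
    rw [hγ]; field_simp
  have hγJ : 0 ≤ γ * J := by positivity
  have hγ1 : γ ≤ 1 / 100 := by nlinarith
  set L := Real.log (4 * (m : ℝ)) with hL
  have hmR : (1 : ℝ) ≤ m := by exact_mod_cast hm
  have hL1 : 1 ≤ L := by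
    have h := Real.log_le_log (by norm_num : (0:ℝ) < 4) (by linarith : (4:ℝ) ≤ 4 * m)
    rw [show (4:ℝ) = 2 ^ 2 by norm_num, Real.log_pow] at h
    have := Real.log_two_gt_d9
    rw [hL, show (4:ℝ) = 2 ^ 2 by norm_num]
    push_cast at h
    linarith
  set η := γ / 64 with hη
  have hη0 : 0 < η := by positivity
  set K := ⌈2 * L / (η * γ)⌉₊ with hK
  set n := J * (Q + 1) with hn
  suffices hcard : S.card ≤ (2 * m * (K + 1)) ^ (n + 1) by
    rcases Nat.eq_zero_or_pos S.card with h0 | h0
    · rw [h0, Nat.cast_zero, Real.log_zero]; positivity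
    have h1 : Real.log S.card ≤ Real.log (((2 * m * (K + 1)) ^ (n + 1) : ℕ) : ℝ) :=
      Real.log_le_log (by exact_mod_cast h0) (by exact_mod_cast hcard)
    push_cast at h1
    rw [Real.log_pow, Real.log_mul (by positivity) (by positivity)] at h1
    have h2 : Real.log (2 * (m : ℝ)) ≤ L := Real.log_le_log (by positivity) (by linarith)
    have h3 : Real.log ((K : ℝ) + 1) ≤ K := by
      have := Real.log_le_sub_one_of_pos (show (0:ℝ) < K + 1 by positivity)
      linarith
    have h4 : (K : ℝ) ≤ 128 / γ ^ 2 * L + 1 := by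
      have h := (Nat.ceil_lt_add_one (show (0:ℝ) ≤ 2 * L / (η * γ) by positivity)).le
      have e : 2 * L / (η * γ) = 128 / γ ^ 2 * L := by rw [hη]; field_simp; ring
      rw [e] at h
      exact le_trans (le_of_eq (by simp [hK, e])) h
    have h5 : ((n : ℝ) + 1) ≤ 3 * J * Q := by
      have hQR : (1 : ℝ) ≤ Q := by exact_mod_cast hQ
      rw [hn]; push_cast
      nlinarith
    have h6 : Real.log (2 * (m : ℝ)) + Real.log ((K : ℝ) + 1) ≤ (128 / γ ^ 2 + 3) * L := by
      linarith
    push_cast at h1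
    refine h1.trans ?_
    exact mul_le_mul h5 h6 (add_nonneg (Real.log_nonneg (by linarith))
      (Real.log_nonneg (by linarith [Nat.cast_nonneg (α := ℝ) K]))) (by positivity)
  rcases lt_or_ge S.card (2 * m) with hlt | hge
  · refine le_trans hlt.le (le_trans ?_ (Nat.le_self_pow (by omega) _))
    exact Nat.le_mul_of_pos_right _ (Nat.succ_pos _)
  have hne : P.Nonempty := ⟨_, hψ ⟨0, hm⟩⟩
  set q := S.card / (2 * m) with hq
  set G := S.filter fun x => ∀ i, q ≤ (S.filter fun y => ψ i x - γ / 16 ≤ ψ i y).card with hG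
  have hGcard : S.card ≤ 2 * G.card := many_good S ψ (by positivity)
  have hq1 : 1 ≤ q := (Nat.one_le_div_iff (by omega)).2 hge
  have hqS : S.card ≤ 4 * m * q := by
    have h1 : S.card < 2 * m * (q + 1) := Nat.lt_mul_div_succ _ (by omega)
    have h2 : 2 * m * 1 ≤ 2 * m * q := Nat.mul_le_mul_left _ hq1
    calc S.card ≤ 2 * m * q + 2 * m := by rw [← Nat.mul_succ]; exact h1.le
      _ ≤ 2 * m * q + 2 * m * q := by omega
      _ = 4 * m * q := by ring
  have reach : ∀ x ∈ G, ∃ F ∈ states η ψ K n,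
      Deep S x P (γ / 8 + 2 * γ * J) (γ ^ 2) F := by
    intro x hxG
    obtain ⟨hxS, hgood⟩ := Finset.mem_filter.1 hxG
    have hS : S.Nonempty := ⟨x, hxS⟩
    have happx : ∀ f ∈ P, ∃ i, ∀ y ∈ S, |f y - f x - (ψ i y - ψ i x)| ≤ γ / 16 := fun f hf => by
      obtain ⟨i, hi⟩ := happ f hf
      exact ⟨i, fun y hy => hi x hxS y hy⟩
    have hRx : ∀ f ∈ P, ∀ y ∈ S, |f y - f x| ≤ 4 := fun f hf y hy => hR f hf x hxS y hy
    have init : Deep S x P (γ / 8) L 0 := by
      intro t ht f hf
      obtain ⟨i, hi⟩ := happx f hf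
      set T := S.filter fun y => ψ i x - γ / 16 ≤ ψ i y with hT
      have hTq : (q : ℝ) ≤ T.card := by exact_mod_cast hgood i
      have hqR : (0 : ℝ) < q := by exact_mod_cast hq1
      have h1 : (q : ℝ) * Real.exp (-(γ / 8 * t)) ≤
          ∑ y ∈ S, Real.exp (((0 : X → ℝ) + t • f) y - ((0 : X → ℝ) + t • f) x) := by
        refine (mul_le_mul_of_nonneg_right hTq (Real.exp_pos _).le).trans ?_
        rw [← nsmul_eq_mul]
        refine (Finset.card_nsmul_le_sum T _ _ ?_).trans
          (Finset.sum_le_sum_of_subset_of_nonneg (Finset.filter_subset _ _)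
            (fun y _ _ => (Real.exp_pos _).le))
        intro y hy
        obtain ⟨hyS, hyi⟩ := Finset.mem_filter.1 hy
        refine Real.exp_le_exp.2 ?_
        have h := mul_le_mul_of_nonneg_left
          (show -(γ / 8) ≤ f y - f x by linarith [(abs_le.1 (hi y hyS)).1]) ht
        simp only [Pi.add_apply, Pi.zero_apply, Pi.smul_apply, smul_eq_mul, zero_add]
        linarith
      have h2 := Real.log_le_log (mul_pos hqR (Real.exp_pos _)) h1
      rw [Real.log_mul hqR.ne' (Real.exp_pos _).ne', Real.log_exp] at h2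
      have h3 : pot S x 0 ≤ L + Real.log q := by
        rw [hL, ← Real.log_mul (by positivity) hqR.ne']
        simp only [pot, Pi.zero_apply, sub_self, Real.exp_zero, Finset.sum_const, nsmul_eq_mul,
          mul_one]
        exact Real.log_le_log (by exact_mod_cast Finset.card_pos.2 hS) (by exact_mod_cast hqS)
      show _ ≤ Real.log _
      linarith
    have hlevel : ∀ (r : ℕ) (θ E e' : ℝ) (F : X → ℝ) (j : ℕ), F ∈ states η ψ K j →
        Deep S x P θ E F → E ≤ L → 0 ≤ e' → E ≤ r * (4 * e') →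
        ∃ F' ∈ states η ψ K (j + r + 1), Deep S x P (θ + 2 * γ) e' F' := by
      intro r
      induction r with
      | zero =>
        intro θ E e' F j hFj hF hEL he' hEr
        have hE : E = 0 := le_antisymm (by simpa using hEr) (deep_nonneg hne hF)
        obtain ⟨i, k, hk, h1, _⟩ := exists_phase hxS hconv hψ hm hγ0 (by linarith) le_rfl
          happx hRx hF
        have hk0 : (k : ℝ) * (γ / 64) = 0 := by
          rw [hE, mul_zero] at hk
          nlinarith [(by positivity : (0:ℝ) ≤ k * (γ / 64))]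
        rw [hk0] at h1
        simp only [zero_mul, mul_zero, zero_smul, add_zero] at h1
        refine ⟨F, states_mono hm η ψ K (by omega) hFj, fun t ht f hf => ?_⟩
        linarith [h1 t ht f hf]
      | succ r ih =>
        intro θ E e' F j hFj hF hEL he' hEr
        obtain ⟨i, k, hk, h1, h2⟩ := exists_phase hxS hconv hψ hm hγ0 (by linarith) le_rfl
          happx hRx hF
        have hkK : k ≤ K := by
          have : (k : ℝ) ≤ K := by
            refine le_trans ?_ (Nat.le_ceil _)
            rw [le_div_iff₀ (by positivity), ← mul_assoc, hη]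
            linarith
          exact_mod_cast this
        have hmem := add_mem_states η ψ K j hFj i hkK
        by_cases hc : 2 * ((k : ℝ) * (γ / 64) * (γ / 16)) ≤ e'
        · exact ⟨_, states_mono hm η ψ K (by omega) hmem,
            fun t ht f hf => by linarith [h1 t ht f hf]⟩
        · push Not at hc
          have hdrop : E - (k : ℝ) * (γ / 64) * (γ / 2) ≤ r * (4 * e') := by
            push_cast at hEr
            linarith
          have hE' : E - (k : ℝ) * (γ / 64) * (γ / 2) ≤ L := by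
            have : 0 ≤ (k : ℝ) * (γ / 64) * (γ / 2) := by positivity
            linarith
          obtain ⟨F', hF', hD'⟩ := ih θ _ e' _ (j + 1) hmem h2 hE' he' hdrop
          refine ⟨F', ?_, hD'⟩
          rwa [show j + 1 + r + 1 = j + (r + 1) + 1 by omega] at hF'
    have hlevels : ∀ a, a ≤ J → ∃ F ∈ states η ψ K (a * (Q + 1)),
        Deep S x P (γ / 8 + 2 * γ * a) (L / (Q : ℝ) ^ a) F := by
      intro a
      induction a with
      | zero => exact fun _ => ⟨0, by simp [states], by simpa using init⟩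
      | succ a ih =>
        intro ha
        obtain ⟨F, hF, hD⟩ := ih (by omega)
        have hQR : (1 : ℝ) ≤ Q := by exact_mod_cast hQ
        have h1 : L / (Q : ℝ) ^ a ≤ L :=
          div_le_self (by linarith) (one_le_pow₀ hQR)
        have h2 : L / (Q : ℝ) ^ a ≤ (Q : ℝ) * (4 * (L / (Q : ℝ) ^ (a + 1))) := by
          have : (Q : ℝ) * (4 * (L / (Q : ℝ) ^ (a + 1))) = 4 * (L / (Q : ℝ) ^ a) := by
            rw [pow_succ]; field_simp
          rw [this]
          linarith [(by positivity : 0 ≤ L / (Q : ℝ) ^ a)]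
        obtain ⟨F', hF', hD'⟩ := hlevel Q _ _ _ F _ hF hD h1 (by positivity) h2
        refine ⟨F', by rwa [Nat.succ_mul, ← add_assoc], ?_⟩
        have e : γ / 8 + 2 * γ * ((a + 1 : ℕ) : ℝ) = γ / 8 + 2 * γ * a + 2 * γ := by
          push_cast; ring
        rwa [e]
    obtain ⟨F, hF, hD⟩ := hlevels J le_rfl
    refine ⟨F, hF, fun t ht f hf => ?_⟩
    have : L / (Q : ℝ) ^ J ≤ γ ^ 2 := by
      have hQR : (0 : ℝ) < (Q : ℝ) ^ J := pow_pos (by exact_mod_cast hQ) J
      exact (div_le_iff₀ hQR).2 hQJ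
    linarith [hD t ht f hf]
  choose F hFmem hFdeep using reach
  let code : X → (X → ℝ) := fun x => if h : x ∈ G then F x h else 0
  have hmaps : Set.MapsTo code G (states η ψ K n) := fun x hx => by
    simp only [code, dif_pos (Finset.mem_coe.1 hx)]
    exact hFmem _ _
  have hinj : Set.InjOn code G := by
    intro a ha b hb hab
    rw [Finset.mem_coe] at ha hb
    simp only [code, dif_pos ha, dif_pos hb] at hab
    by_contra hne'
    have haS := (Finset.mem_filter.1 ha).1
    have hbS := (Finset.mem_filter.1 hb).1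
    obtain ⟨f, hf, hgap⟩ := hsep a haS b hbS hne'
    have bound : ∀ c, ∀ hc : c ∈ G, ∀ g ∈ P, g c - mean S (F c hc) g < 1 / 2 := by
      intro c hc g hg
      have hcS := (Finset.mem_filter.1 hc).1
      have hS : S.Nonempty := ⟨c, hcS⟩
      have h1 := hFdeep c hc γ hγ0.le g hg
      have hr : ∀ y ∈ S, |(γ • g) y - (γ • g) c| ≤ γ * 4 := by
        intro y hy
        simp only [Pi.smul_apply, smul_eq_mul, ← mul_sub, abs_mul, abs_of_pos hγ0]
        exact mul_le_mul_of_nonneg_left (hR _ hg c hcS y hy) hγ0.le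
      have h2 := h1.trans (pot_add_le hS c _ _ hr (by linarith))
      rw [mean_smul, Pi.smul_apply, smul_eq_mul] at h2
      have h3 : γ * (g c - mean S (F c hc) g) ≤ γ * (γ / 8 + 2 * γ * J + γ + 16 * γ) := by
        linarith
      have h4 := le_of_mul_le_mul_left h3 hγ0
      linarith
    have h1 := bound a ha f hf
    have h2 := bound b hb (-f) (hsymm f hf)
    rw [← hab] at h2
    have h3 : mean S (F a ha) (-f) = -mean S (F a ha) f := by
      simp [mean, Finset.sum_neg_distrib, neg_div]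
    rw [h3] at h2
    simp only [Pi.neg_apply] at h2
    linarith
  have h1 : G.card ≤ (states η ψ K n).card := Finset.card_le_card_of_injOn code hmaps hinj
  calc S.card ≤ 2 * G.card := hGcard
    _ ≤ 2 * (m * (K + 1)) ^ n := Nat.mul_le_mul_left _ (h1.trans (card_states_le η ψ K n))
    _ ≤ (2 * m * (K + 1)) * (2 * m * (K + 1)) ^ n := by
        refine Nat.mul_le_mul ?_ (Nat.pow_le_pow_left ?_ n)
        · calc 2 = 2 * 1 * 1 := rfl
            _ ≤ 2 * m * (K + 1) := Nat.mul_le_mul (Nat.mul_le_mul_left _ hm) (by omega)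
        · exact Nat.mul_le_mul_right _ (by omega)
    _ = (2 * m * (K + 1)) ^ (n + 1) := by ring

end Vale.Agent.P126
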