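import Vale.Agent.P126.Bodies
import Vale.Agent.P126.Encode

/-!
# P126: dyadic chaining with nets whose product is controlled

The nets of `polar L` seen from `K ∩ 2^j • L` combine, for levels `j` far apart, to one separated
subset of `polar L`, so the sum of the logarithms of their sizes is at most a constant multiple
of the logarithm of the covering number of `polar L`.
-/

namespace Vale.Agent.P126

open Set Finset
open scoped Pointwise

variable {n : ℕ}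

/-- The pairing. -/
def pair (x φ : Fin n → ℝ) : ℝ := ∑ u, x u * φ u

lemma pair_sub_left (x y φ : Fin n → ℝ) : pair (x - y) φ = pair x φ - pair y φ := by
  simp [pair, sub_mul, Finset.sum_sub_distrib]

lemma pair_sub_right (x φ ψ : Fin n → ℝ) : pair x (φ - ψ) = pair x φ - pair x ψ := by
  simp [pair, mul_sub, Finset.sum_sub_distrib]

lemma pair_smul_left (t : ℝ) (x φ : Fin n → ℝ) : pair (t • x) φ = t * pair x φ := by
  simp [pair, Finset.mul_sum, mul_assoc]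

lemma pair_smul_right (t : ℝ) (x φ : Fin n → ℝ) : pair x (t • φ) = t * pair x φ := by
  simp [pair, Finset.mul_sum, mul_left_comm]

lemma pair_sum {ι : Type*} (s : Finset ι) (x : Fin n → ℝ) (f : ι → Fin n → ℝ) :
    pair x (∑ j ∈ s, f j) = ∑ j ∈ s, pair x (f j) := by
  simp only [pair, Finset.sum_apply, Finset.mul_sum]
  exact Finset.sum_comm

lemma abs_pair_smul_le {L : Set (Fin n → ℝ)} (hL : ∀ x ∈ L, -x ∈ L) {s : ℝ} (hs : 0 ≤ s)
    {z φ : Fin n → ℝ} (hz : z ∈ s • L) (hφ : φ ∈ polar L) : |pair z φ| ≤ s := by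
  obtain ⟨w, hw, rfl⟩ := hz
  rw [pair_smul_left, abs_mul, abs_of_nonneg hs]
  exact mul_le_of_le_one_right hs (abs_pair_le hL hφ hw)

lemma half_pow_sum_le (s : Finset ℕ) (M : ℕ) (h : ∀ i ∈ s, M ≤ i) :
    ∑ i ∈ s, (1 / 2 : ℝ) ^ i ≤ 2 * (1 / 2) ^ M := by
  refine (Finset.sum_le_sum_of_subset_of_nonneg (t := Finset.Ico M (s.sup id + 1)) ?_
    (fun i _ _ => by positivity)).trans ?_
  · intro i hi
    exact Finset.mem_Ico.2 ⟨h i hi, Nat.lt_succ_of_le (Finset.le_sup (f := id) hi)⟩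
  · refine (geom_sum_Ico_le_of_lt_one (by norm_num) (by norm_num)).trans (le_of_eq ?_)
    ring

/-- A symmetric relation with bounded separated sets has a maximal one. -/
lemma exists_net {α : Type*} (A : Set α) (R : α → α → Prop) (M : ℕ)
    (hsymm : ∀ a b, R a b → R b a)
    (hM : ∀ T : Finset α, (∀ a ∈ T, a ∈ A) →
      (∀ a ∈ T, ∀ b ∈ T, a ≠ b → R a b) → T.card ≤ M) :
    ∃ T : Finset α, T.card ≤ M ∧ (∀ a ∈ T, a ∈ A) ∧ (∀ a ∈ T, ∀ b ∈ T, a ≠ b → R a b) ∧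
      ∀ a ∈ A, ∃ t ∈ T, a = t ∨ ¬ R a t := by
  classical
  by_contra hno
  push Not at hno
  have grow : ∀ k, ∃ T : Finset α, T.card = k ∧ (∀ a ∈ T, a ∈ A) ∧
      ∀ a ∈ T, ∀ b ∈ T, a ≠ b → R a b := by
    intro k
    induction k with
    | zero => exact ⟨∅, by simp⟩
    | succ k ih =>
      obtain ⟨T, hc, hA, hR⟩ := ih
      obtain ⟨a, haA, ha⟩ := hno T (hM T hA hR) hA hR
      have hanot : a ∉ T := fun h => (ha a h).1 rfl
      refine ⟨insert a T, by rw [Finset.card_insert_of_notMem hanot, hc], ?_, ?_⟩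
      · intro b hb
        rcases Finset.mem_insert.1 hb with rfl | hb'
        · exact haA
        · exact hA b hb'
      · intro b hb c hc' hbc
        rcases Finset.mem_insert.1 hb with rfl | hb'
        · rcases Finset.mem_insert.1 hc' with rfl | hc''
          · exact absurd rfl hbc
          · exact (ha c hc'').2
        · rcases Finset.mem_insert.1 hc' with rfl | hc''
          · exact hsymm _ _ (ha b hb').2
          · exact hR b hb' c hc'' hbc
  obtain ⟨T, hc, hA, hR⟩ := grow (M + 1)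
  have := hM T hA hR
  omega

/-- Two points of the polar of `L` in one piece are close on `K`. -/
lemma same_piece {K : Set (Fin n → ℝ)} (hKsymm : ∀ x ∈ K, -x ∈ K) {δ a : ℝ} (hδ0 : 0 < δ)
    (ha : a = 16 / δ) {φ φ' v : Fin n → ℝ} (h : φ - v ∈ a⁻¹ • polar K) (h' : φ' - v ∈ a⁻¹ • polar K)
    {z : Fin n → ℝ} (hz : z ∈ K) : |pair z φ - pair z φ'| ≤ δ / 8 := by
  obtain ⟨p, hp, hpe⟩ := h
  obtain ⟨p', hp', hpe'⟩ := h'
  have e : φ - φ' = a⁻¹ • p - a⁻¹ • p' := by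
    rw [show a⁻¹ • p = φ - v from hpe, show a⁻¹ • p' = φ' - v from hpe']
    abel
  rw [← pair_sub_right, e, pair_sub_right, pair_smul_right, pair_smul_right]
  have h4 := abs_le.1 (abs_pair_le hKsymm hp hz)
  have h5 := abs_le.1 (abs_pair_le hKsymm hp' hz)
  have ha' : a⁻¹ = δ / 16 := by rw [ha, inv_div]
  rw [ha', abs_le]
  unfold pair
  constructor <;> nlinarith

/-- The range of `K` is at most the number of pieces. -/
lemma range_le {K L : Set (Fin n → ℝ)} (hKsymm : ∀ x ∈ K, -x ∈ K)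
    (hLsymm : ∀ x ∈ L, -x ∈ L) {δ a : ℝ} (hδ0 : 0 < δ) (hδ1 : δ ≤ 1) (ha : a = 16 / δ) {m : ℕ}
    {ctr : Fin m → Fin n → ℝ} (hm : 1 ≤ m)
    (hpiece : ∀ φ ∈ polar L, ∃ i, φ - ctr i ∈ a⁻¹ • polar K)
    {φ : Fin n → ℝ} (hφ : φ ∈ polar L) {x : Fin n → ℝ} (hx : x ∈ K) : |pair x φ| ≤ m := by
  have hmR0 : (1:ℝ) ≤ m := by exact_mod_cast hm
  have hmR : (0:ℝ) < m := by linarith
  have hmem : ∀ j : Fin (m + 1), ((2 * (j:ℝ) / m) - 1) • φ ∈ polar L := by
    intro j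
    set t : ℝ := 2 * (j:ℝ) / m - 1 with ht
    intro z hz
    have hj : (j:ℝ) ≤ m := by exact_mod_cast Nat.lt_succ_iff.1 j.2
    have ht0 : 0 ≤ 2 * (j:ℝ) / m := by positivity
    have ht2 : 2 * (j:ℝ) / m ≤ 2 := by rw [div_le_iff₀ hmR]; linarith
    show pair z (t • φ) ≤ 1
    rw [pair_smul_right]
    refine (le_abs_self _).trans ?_
    rw [abs_mul]
    exact mul_le_one₀ (abs_le.2 ⟨by linarith, by linarith⟩) (abs_nonneg _)
      (abs_pair_le hLsymm hφ hz)
  choose f hf using fun j => hpiece _ (hmem j)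
  obtain ⟨j, k, hjk, hfjk⟩ := Fintype.exists_ne_map_eq_of_card_lt f (by simp)
  have h := same_piece hKsymm hδ0 ha (hf j) (hfjk ▸ hf k) hx
  rw [pair_smul_right, pair_smul_right, ← sub_mul, abs_mul] at h
  have h1 : (1:ℝ) ≤ |(j:ℝ) - k| := by
    have hne : (j:ℤ) - k ≠ 0 := by
      intro h0
      exact hjk (Fin.ext (by omega))
    exact_mod_cast Int.one_le_abs hne
  have h2 : 2 / (m:ℝ) ≤ |2 * (j:ℝ) / m - 1 - (2 * (k:ℝ) / m - 1)| := by
    have : 2 * (j:ℝ) / m - 1 - (2 * (k:ℝ) / m - 1) = 2 / m * ((j:ℝ) - k) := by ring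
    rw [this, abs_mul, abs_of_pos (by positivity : (0:ℝ) < 2 / m)]
    exact le_mul_of_one_le_right (by positivity) h1
  have h3 := (mul_le_mul_of_nonneg_right h2 (abs_nonneg (pair x φ))).trans h
  rw [div_mul_eq_mul_div, div_le_iff₀ hmR] at h3
  have h4 : δ / 8 * (m:ℝ) ≤ 1 * m := by
    refine mul_le_mul_of_nonneg_right ?_ hmR.le
    linarith
  linarith

/-- `φ` and `φ'` are told apart at level `j`. -/
def Sep (K L : Set (Fin n → ℝ)) (δ : ℝ) (j : ℕ) (φ φ' : Fin n → ℝ) : Prop :=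
  ∃ z ∈ K, z ∈ (2:ℝ) ^ j • L ∧ δ * 2 ^ j < |pair z φ - pair z φ'|

/-- Nets at all levels, with controlled product. -/
lemma exists_nets {K L : Set (Fin n → ℝ)} (hKsymm : ∀ x ∈ K, -x ∈ K)
    (hLsymm : ∀ x ∈ L, -x ∈ L) {δ a : ℝ} (hδ0 : 0 < δ) (hδ1 : δ ≤ 1) (ha : a = 16 / δ) {c : ℕ}
    (hc : (1 / 2 : ℝ) ^ c < δ / 16) {m : ℕ} {ctr : Fin m → Fin n → ℝ}
    (hpiece : ∀ φ ∈ polar L, ∃ i, φ - ctr i ∈ a⁻¹ • polar K) :
    ∃ T : ℕ → Finset (Fin n → ℝ), (∀ j, 1 ≤ (T j).card) ∧ (∀ j, (T j).card ≤ m) ∧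
      (∀ j, ∀ φ ∈ T j, φ ∈ polar L) ∧
      (∀ j, ∀ φ ∈ polar L, ∃ t ∈ T j, φ = t ∨ ¬ Sep K L δ j φ t) ∧
      ∀ d, ∑ j ∈ Finset.range d, Real.log ((T j).card : ℝ) ≤ c * Real.log m := by
  classical
  have hSsymm : ∀ j φ φ', Sep K L δ j φ φ' → Sep K L δ j φ' φ := fun j φ φ' ⟨z, h1, h2, h3⟩ =>
    ⟨z, h1, h2, by rwa [abs_sub_comm]⟩
  have hprod : ∀ (I : Finset ℕ), (∀ i ∈ I, ∀ j ∈ I, i < j → i + c ≤ j) →
      ∀ T : ℕ → Finset (Fin n → ℝ), (∀ j ∈ I, ∀ φ ∈ T j, φ ∈ polar L) →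
      (∀ j ∈ I, ∀ φ ∈ T j, ∀ φ' ∈ T j, φ ≠ φ' → Sep K L δ j φ φ') →
      ∏ j ∈ I, (T j).card ≤ m := by
    intro I hI T hT hTsep
    let F : (∀ j : ↥I, ↥(T j)) → Fin n → ℝ :=
      fun f => ∑ j : ↥I, ((1 / 2 : ℝ) ^ (j:ℕ) / 2) • (f j : Fin n → ℝ)
    have hwsum : ∑ j : ↥I, (1 / 2 : ℝ) ^ (j:ℕ) / 2 ≤ 1 := by
      rw [Finset.sum_coe_sort I (fun j => (1 / 2 : ℝ) ^ j / 2), ← Finset.sum_div]
      have h := half_pow_sum_le I 0 (fun i _ => Nat.zero_le i)
      rw [pow_zero] at h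
      linarith
    have hFmem : ∀ f, F f ∈ polar L := by
      intro f z hz
      show pair z (F f) ≤ 1
      simp only [F, pair_sum, pair_smul_right]
      refine le_trans (Finset.sum_le_sum fun j _ => mul_le_of_le_one_right (by positivity) ?_)
        hwsum
      exact hT j j.2 _ (f j).2 z hz
    choose g hg using fun f => hpiece _ (hFmem f)
    have hinj : Function.Injective g := by
      intro f f' hff
      by_contra hne
      let D := I.filter fun j => ∃ hj : j ∈ I, f ⟨j, hj⟩ ≠ f' ⟨j, hj⟩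
      have hD : D.Nonempty := by
        obtain ⟨j, hj⟩ := Function.ne_iff.1 hne
        exact ⟨j, Finset.mem_filter.2 ⟨j.2, j.2, hj⟩⟩
      set j0 := D.min' hD with hj0
      obtain ⟨hj0I, hj0I', hj0ne⟩ := Finset.mem_filter.1 (D.min'_mem hD)
      obtain ⟨z, hzK, hzL, hzsep⟩ := hTsep j0 hj0I _ (f ⟨j0, hj0I'⟩).2 _ (f' ⟨j0, hj0I'⟩).2
        (fun h => hj0ne (Subtype.ext h))
      have hclose := same_piece hKsymm hδ0 ha (hg f) (hff ▸ hg f') hzK
      simp only [F, pair_sum, pair_smul_right, ← Finset.sum_sub_distrib, ← mul_sub] at hclose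
      rw [← Finset.add_sum_erase _ _ (Finset.mem_univ ⟨j0, hj0I'⟩)] at hclose
      set A := (1 / 2 : ℝ) ^ j0 / 2 *
        (pair z (f ⟨j0, hj0I'⟩ : Fin n → ℝ) - pair z (f' ⟨j0, hj0I'⟩ : Fin n → ℝ)) with hA
      have hAbig : δ / 2 < |A| := by
        rw [hA, abs_mul, abs_of_pos (by positivity : (0:ℝ) < (1 / 2) ^ j0 / 2)]
        have h := mul_lt_mul_of_pos_left hzsep (by positivity : (0:ℝ) < (1 / 2) ^ j0 / 2)
        have e : (1 / 2 : ℝ) ^ j0 / 2 * (δ * 2 ^ j0) = δ / 2 := by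
          rw [div_pow, one_pow]
          field_simp
        rwa [e] at h
      set B := ∑ j ∈ (Finset.univ : Finset ↥I).erase ⟨j0, hj0I'⟩, (1 / 2 : ℝ) ^ (j:ℕ) / 2 *
        (pair z (f j : Fin n → ℝ) - pair z (f' j : Fin n → ℝ)) with hB
      have hBsmall : |B| ≤ δ / 8 := by
        rw [hB]
        refine (Finset.abs_sum_le_sum_abs _ _).trans ?_
        have hterm : ∀ j ∈ (Finset.univ : Finset ↥I).erase ⟨j0, hj0I'⟩,
            |(1 / 2 : ℝ) ^ (j:ℕ) / 2 * (pair z (f j : Fin n → ℝ) - pair z (f' j : Fin n → ℝ))| ≤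
            (if j0 + c ≤ (j:ℕ) then (1 / 2 : ℝ) ^ (j:ℕ) else 0) * 2 ^ j0 := by
          intro j hj
          have hjne : (j:ℕ) ≠ j0 := fun h => (Finset.mem_erase.1 hj).1 (Subtype.ext h)
          rcases lt_or_gt_of_ne hjne with hlt | hgt
          · have heq : f j = f' j := by
              by_contra h
              have := D.min'_le (j:ℕ) (Finset.mem_filter.2 ⟨j.2, j.2, h⟩)
              omega
            rw [heq, sub_self, mul_zero, abs_zero]
            split <;> positivity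
          · rw [if_pos (hI j0 hj0I' j j.2 hgt), abs_mul,
              abs_of_pos (by positivity : (0:ℝ) < (1 / 2) ^ (j:ℕ) / 2)]
            have h1 := abs_le.1 (abs_pair_smul_le hLsymm (by positivity) hzL
              (hT j j.2 _ (f j).2))
            have h2 := abs_le.1 (abs_pair_smul_le hLsymm (by positivity) hzL
              (hT j j.2 _ (f' j).2))
            refine (mul_le_mul_of_nonneg_left (b := |pair z (f j : Fin n → ℝ) -
              pair z (f' j : Fin n → ℝ)|) (c := 2 * 2 ^ j0)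
              (abs_le.2 ⟨by linarith, by linarith⟩) (by positivity)).trans (le_of_eq ?_)
            ring
        refine (Finset.sum_le_sum hterm).trans ?_
        refine (Finset.sum_le_sum_of_subset_of_nonneg (Finset.subset_univ _)
          (fun j _ _ => by split <;> positivity)).trans ?_
        rw [Finset.sum_coe_sort I (fun j => (if j0 + c ≤ j then (1 / 2 : ℝ) ^ j else 0) * 2 ^ j0),
          ← Finset.sum_mul, ← Finset.sum_filter]
        refine (mul_le_mul_of_nonneg_right (half_pow_sum_le _ (j0 + c)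
          (fun i hi => (Finset.mem_filter.1 hi).2)) (by positivity)).trans ?_
        have e : 2 * (1 / 2 : ℝ) ^ (j0 + c) * 2 ^ j0 = 2 * (1 / 2) ^ c := by
          rw [pow_add, div_pow, one_pow]
          field_simp
        rw [e]
        linarith
      have h1 : |A| ≤ |A + B| + |B| := by simpa using abs_add_le (A + B) (-B)
      linarith
    have h := Fintype.card_le_of_injective g hinj
    rw [Fintype.card_pi, Fintype.card_fin] at h
    simp only [Fintype.card_coe] at h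
    rwa [Finset.prod_coe_sort I (fun j => (T j).card)] at h
  have hnetb : ∀ j, ∀ T : Finset (Fin n → ℝ), (∀ φ ∈ T, φ ∈ polar L) →
      (∀ φ ∈ T, ∀ φ' ∈ T, φ ≠ φ' → Sep K L δ j φ φ') → T.card ≤ m := by
    intro j T hT hsep
    simpa using hprod {j} (by simp) (fun _ => T) (fun i _ => hT)
      (fun i hi => by rw [Finset.mem_singleton] at hi; subst hi; exact hsep)
  choose T hTcard hTmem hTsep hTmax using fun j =>
    exists_net (polar L) (Sep K L δ j) m (hSsymm j) (hnetb j)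
  have hT1 : ∀ j, 1 ≤ (T j).card := fun j => by
    obtain ⟨t, ht, _⟩ := hTmax j 0 (zero_mem_polar L)
    exact Finset.card_pos.2 ⟨t, ht⟩
  refine ⟨T, hT1, hTcard, hTmem, hTmax, fun d => ?_⟩
  set ℓ := Real.log (m:ℝ) with hℓ
  have hsum : ∑ j ∈ Finset.range d, Real.log ((T j).card : ℝ) ≤ c * ℓ := by
    have hcpos : 0 < c := by
      rcases Nat.eq_zero_or_pos c with h0 | h0
      · subst h0
        rw [pow_zero] at hc
        linarith
      · exact h0
    rw [← Finset.sum_fiberwise_of_maps_to (g := fun j => j % c) (t := Finset.range c)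
      (fun j _ => Finset.mem_range.2 (Nat.mod_lt _ hcpos))]
    refine (Finset.sum_le_card_nsmul _ _ ℓ fun r _ => ?_).trans (le_of_eq (by simp))
    set I := (Finset.range d).filter fun j => j % c = r with hI
    have hstride : ∀ i ∈ I, ∀ j ∈ I, i < j → i + c ≤ j := by
      intro i hi j hj hij
      have h1 := (Finset.mem_filter.1 hi).2
      have h2 := (Finset.mem_filter.1 hj).2
      have h3 := Nat.div_add_mod i c
      have h4 := Nat.div_add_mod j c
      have h5 : i / c < j / c := by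
        by_contra hcon
        have : c * (j / c) ≤ c * (i / c) := Nat.mul_le_mul_left _ (not_lt.1 hcon)
        omega
      have : c * (i / c + 1) ≤ c * (j / c) := Nat.mul_le_mul_left _ h5
      rw [Nat.mul_succ] at this
      omega
    have h := hprod I hstride T (fun j _ => hTmem j) (fun j _ => hTsep j)
    have hne : ∀ j ∈ I, ((T j).card : ℝ) ≠ 0 := fun j _ => by
      exact_mod_cast Nat.one_le_iff_ne_zero.1 (hT1 j)
    rw [← Real.log_prod hne]
    refine Real.log_le_log (Finset.prod_pos fun j _ => by exact_mod_cast hT1 j) ?_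
    exact_mod_cast h
  exact hsum

/-- The log-cardinality of a separated piece at one level. -/
lemma piece_card_le {K L : Set (Fin n → ℝ)} (hK : Convex ℝ K) (hKsymm : ∀ x ∈ K, -x ∈ K)
    (hL : Convex ℝ L) (hLclosed : IsClosed L) (hL0 : L ∈ nhds (0 : Fin n → ℝ))
    (hLsymm : ∀ x ∈ L, -x ∈ L) {J Q : ℕ} (hJ : 1 ≤ J) (hQ1 : 1 ≤ Q) {γ δ : ℝ}
    (hγ : γ = 1 / (50 * ((J : ℝ) + 1))) (hδ : δ = γ / 64) (j : ℕ)
    (T : Finset (Fin n → ℝ)) (hT1 : 1 ≤ T.card) (hTmem : ∀ φ ∈ T, φ ∈ polar L)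
    (hTmax : ∀ φ ∈ polar L, ∃ t ∈ T, φ = t ∨ ¬ Sep K L δ j φ t)
    (hQT : Real.log (4 * T.card) ≤ γ ^ 2 * (Q : ℝ) ^ J)
    (S : Finset (Fin n → ℝ)) (hSK : ∀ x ∈ S, x ∈ K)
    (hx0 : ∃ x0, ∀ x ∈ S, x - x0 ∈ (2 * (2:ℝ) ^ j) • L)
    (hSsep : ∀ x ∈ S, ∀ y ∈ S, x ≠ y → x - y ∉ (2:ℝ) ^ j • L) :
    Real.log S.card ≤ 3 * J * Q * ((128 / γ ^ 2 + 3) * Real.log (4 * T.card)) := by
  classical
  have hγ0 : 0 < γ := by rw [hγ]; positivity
  obtain ⟨x0, hx0⟩ := hx0
  set s : ℝ := (2:ℝ) ^ j with hs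
  have hs0 : 0 < s := by positivity
  let ev : (Fin n → ℝ) →ₗ[ℝ] ((Fin n → ℝ) → ℝ) :=
    { toFun := fun φ x => s⁻¹ * pair x φ
      map_add' := fun φ φ' => by
        ext x; simp only [pair, Pi.add_apply, mul_add, Finset.sum_add_distrib]
      map_smul' := fun r φ => by
        ext x
        simp only [pair_smul_right, Pi.smul_apply, smul_eq_mul, RingHom.id_apply]
        ring }
  let e := T.equivFin
  refine log_separated_card_le S (ev '' polar L) ((convex_polar L).linear_image ev) ?_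
    (hT1) (fun i => ev (e.symm i : Fin n → ℝ))
    (fun i => ⟨_, hTmem _ (e.symm i).2, rfl⟩) hJ hQ1 hγ ?_ ?_ ?_ ?_
  · rintro _ ⟨φ, hφ, rfl⟩
    exact ⟨-φ, neg_mem_polar hLsymm hφ, map_neg ev φ⟩
  · exact hQT
  · rintro _ ⟨φ, hφ, rfl⟩
    obtain ⟨t, ht, hnot⟩ := hTmax φ hφ
    refine ⟨e ⟨t, ht⟩, fun x hx y hy => ?_⟩
    simp only [Equiv.symm_apply_apply]
    show |s⁻¹ * pair y φ - s⁻¹ * pair x φ - (s⁻¹ * pair y t - s⁻¹ * pair x t)| ≤ γ / 16
    rw [← mul_sub, ← mul_sub, ← mul_sub, abs_mul, abs_of_pos (inv_pos.2 hs0),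
      inv_mul_le_iff₀ hs0]
    rcases hnot with rfl | hnot
    · rw [sub_self, abs_zero]; positivity
    set z : Fin n → ℝ := (1 / 4 : ℝ) • (y - x) with hz
    have hzK : z ∈ K := by
      have h1 := hK (hSK y hy) (hKsymm x (hSK x hx))
        (show (0:ℝ) ≤ 1 / 2 by norm_num) (show (0:ℝ) ≤ 1 / 2 by norm_num) (by norm_num)
      have h2 := hK (hSK x hx) (hKsymm x (hSK x hx))
        (show (0:ℝ) ≤ 1 / 2 by norm_num) (show (0:ℝ) ≤ 1 / 2 by norm_num) (by norm_num)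
      have h3 := hK h1 h2
        (show (0:ℝ) ≤ 1 / 2 by norm_num) (show (0:ℝ) ≤ 1 / 2 by norm_num) (by norm_num)
      convert h3 using 1
      rw [hz]
      funext u
      simp only [Pi.smul_apply, Pi.sub_apply, Pi.add_apply, Pi.neg_apply, smul_eq_mul]
      ring
    have hzL : z ∈ s • L := by
      obtain ⟨w, hw, hwe⟩ := hx0 y hy
      obtain ⟨w', hw', hwe'⟩ := hx0 x hx
      refine ⟨(1 / 2 : ℝ) • w + (1 / 2 : ℝ) • (-w'),
        hL hw (hLsymm w' hw') (by norm_num) (by norm_num) (by norm_num), ?_⟩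
      rw [hz]
      funext u
      have h1 := congrFun hwe u
      have h2 := congrFun hwe' u
      simp only [Pi.smul_apply, Pi.sub_apply, Pi.add_apply, Pi.neg_apply, smul_eq_mul]
        at h1 h2 ⊢
      linear_combination (1 / 4 : ℝ) * h1 - (1 / 4 : ℝ) * h2
    have h : |pair z φ - pair z t| ≤ δ * 2 ^ j := by
      by_contra hcon
      exact hnot ⟨z, hzK, hzL, not_le.1 hcon⟩
    rw [hz, pair_smul_left, pair_smul_left, pair_sub_left, pair_sub_left, ← mul_sub, abs_mul,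
      abs_of_pos (by norm_num : (0:ℝ) < 1 / 4), ← hs] at h
    have h' : δ * s = γ / 64 * s := by rw [hδ]
    linarith
  · rintro _ ⟨φ, hφ, rfl⟩ x hx y hy
    have h1 := abs_le.1 (abs_pair_smul_le hLsymm (by positivity) (hx0 x hx) hφ)
    have h2 := abs_le.1 (abs_pair_smul_le hLsymm (by positivity) (hx0 y hy) hφ)
    rw [pair_sub_left] at h1 h2
    show |s⁻¹ * pair y φ - s⁻¹ * pair x φ| ≤ 4
    rw [← mul_sub, abs_mul, abs_of_pos (inv_pos.2 hs0), inv_mul_le_iff₀ hs0]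
    exact abs_le.2 ⟨by linarith, by linarith⟩
  · intro x hx y hy hxy
    by_contra hcon
    push Not at hcon
    apply hSsep x hx y hy hxy
    refine mem_smul_of_pair_le hL hLclosed (mem_of_mem_nhds hL0) hs0 (fun φ hφ => ?_)
    have h := hcon _ ⟨φ, hφ, rfl⟩
    have h' : s⁻¹ * pair x φ - s⁻¹ * pair y φ ≤ 1 := h
    rw [← mul_sub, inv_mul_le_iff₀ hs0, mul_one, ← pair_sub_left] at h'
    exact h'

/-- Dyadic chaining. -/
lemma coveringNumber_le_prod {K L : Set (Fin n → ℝ)} (hL : Convex ℝ L) (hLclosed : IsClosed L)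
    (hL0 : L ∈ nhds (0 : Fin n → ℝ)) (hLsymm : ∀ x ∈ L, -x ∈ L) {m : ℕ}
    (hrange : ∀ φ ∈ polar L, ∀ x ∈ K, |pair x φ| ≤ m) (U : ℕ → ℕ)
    (hsmall : ∀ (j : ℕ) (S : Finset (Fin n → ℝ)), (∀ x ∈ S, x ∈ K) →
      (∃ x0, ∀ x ∈ S, x - x0 ∈ (2 * (2:ℝ) ^ j) • L) →
      (∀ x ∈ S, ∀ y ∈ S, x ≠ y → x - y ∉ (2:ℝ) ^ j • L) → S.card ≤ U j) :
    coveringNumber K L ≤ ∏ i ∈ Finset.range (Nat.log 2 m + 1), U i := by
  classical
  have hrefine : ∀ j x0, ∃ R : Finset (Fin n → ℝ), R.card ≤ U j ∧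
      ∀ x ∈ K, x - x0 ∈ (2 * (2:ℝ) ^ j) • L → ∃ t ∈ R, x - t ∈ (2:ℝ) ^ j • L := by
    intro j x0
    obtain ⟨R, hR1, _, _, hR4⟩ := exists_net {x | x ∈ K ∧ x - x0 ∈ (2 * (2:ℝ) ^ j) • L}
      (fun x y => x - y ∉ (2:ℝ) ^ j • L) (U j)
      (fun x y h hmem => by
        obtain ⟨w, hw, hwe⟩ := hmem
        refine h ⟨-w, hLsymm w hw, ?_⟩
        simp only [smul_neg] at hwe ⊢
        rw [hwe, neg_sub])
      (fun S hS hsep => hsmall j S (fun x hx => (hS x hx).1) ⟨x0, fun x hx => (hS x hx).2⟩ hsep)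
    refine ⟨R, hR1, fun x hx hx' => ?_⟩
    obtain ⟨t, ht, h⟩ := hR4 x ⟨hx, hx'⟩
    refine ⟨t, ht, ?_⟩
    rcases h with rfl | h
    · rw [sub_self]; exact zero_mem_smul_set (mem_of_mem_nhds hL0)
    · exact not_not.1 h
  have hchain : ∀ d j : ℕ, (m:ℝ) ≤ 2 ^ (j + d) → ∃ R : Finset (Fin n → ℝ),
      R.card ≤ ∏ i ∈ Finset.range d, U (j + i) ∧ ∀ x ∈ K, ∃ t ∈ R, x - t ∈ (2:ℝ) ^ j • L := by
    intro d
    induction d with
    | zero =>
      intro j hj
      refine ⟨{0}, by simp, fun x hx => ⟨0, by simp, ?_⟩⟩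
      rw [sub_zero]
      refine mem_smul_of_pair_le hL hLclosed (mem_of_mem_nhds hL0) (by positivity)
        (fun φ hφ => ((le_abs_self _).trans (hrange φ hφ x hx)).trans ?_)
      simpa using hj
    | succ d ih =>
      intro j hj
      obtain ⟨R, hR, hcov⟩ := ih (j + 1) (by rwa [Nat.add_right_comm])
      choose R' hR' hcov' using fun x0 => hrefine j x0
      refine ⟨R.biUnion R', ?_, fun x hx => ?_⟩
      · refine (Finset.card_biUnion_le.trans (Finset.sum_le_sum fun t _ => hR' t)).trans ?_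
        rw [Finset.sum_const, smul_eq_mul, Finset.prod_range_succ', add_zero]
        refine Nat.mul_le_mul_right _ (hR.trans (le_of_eq (Finset.prod_congr rfl fun i _ => ?_)))
        rw [add_assoc, add_comm 1 i]
      · obtain ⟨t, ht, htx⟩ := hcov x hx
        rw [pow_succ'] at htx
        obtain ⟨t', ht', htx'⟩ := hcov' t x hx htx
        exact ⟨t', Finset.mem_biUnion.2 ⟨t, ht, ht'⟩, htx'⟩
  set d := Nat.log 2 m + 1 with hd
  have hcovN : coveringNumber K L ≤ ∏ i ∈ Finset.range d, U i := by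
    obtain ⟨R, hR, hcov⟩ := hchain d 0 (by
      rw [zero_add]
      exact_mod_cast (Nat.lt_pow_succ_log_self one_lt_two m).le)
    simp only [zero_add] at hR
    refine le_trans (Nat.sInf_le
      (s := {N : ℕ | ∃ c : Fin N → (Fin n → ℝ), K ⊆ ⋃ i, {y | y - c i ∈ L}})
      ⟨fun i => (R.equivFin.symm i : Fin n → ℝ), fun x hx => ?_⟩) hR
    obtain ⟨t, ht, htx⟩ := hcov x hx
    rw [pow_zero, one_smul] at htx
    exact mem_iUnion.2 ⟨R.equivFin ⟨t, ht⟩, by simpa using htx⟩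
  exact hcovN

/-- The basic inequality, with exponent `1 + 1 / J`. -/
theorem log_coveringNumber_le_pow {J : ℕ} (hJ : 1 ≤ J) :
    ∃ a b : ℝ, 1 ≤ a ∧ 1 ≤ b ∧ ∀ (n : ℕ) (K L : Set (Fin n → ℝ)),
      IsCompact K → Convex ℝ K → (∀ x ∈ K, -x ∈ K) → Convex ℝ L → IsClosed L →
      L ∈ nhds (0 : Fin n → ℝ) → (∀ x ∈ L, -x ∈ L) →
      Real.log (coveringNumber K L) ≤ b * (Real.log (coveringNumber (polar L) (a⁻¹ • polar K)) *
        Real.log (coveringNumber (polar L) (a⁻¹ • polar K)) ^ ((J : ℝ)⁻¹)) := by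
  set γ : ℝ := 1 / (50 * ((J : ℝ) + 1)) with hγ
  have hγ0 : 0 < γ := by rw [hγ]; positivity
  have hγ1 : γ ≤ 1 := by
    rw [hγ, div_le_one (by positivity)]
    linarith [Nat.cast_nonneg (α := ℝ) J]
  set δ : ℝ := γ / 64 with hδ
  have hδ0 : 0 < δ := by positivity
  set a : ℝ := 16 / δ with ha
  have ha1 : 1 ≤ a := by
    rw [ha, le_div_iff₀ hδ0, hδ]
    linarith
  obtain ⟨c, hc⟩ := exists_pow_lt_of_lt_one (by positivity : (0:ℝ) < δ / 16)
    (by norm_num : (1 / 2 : ℝ) < 1)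
  set C : ℝ := 3 * J * (128 / γ ^ 2 + 3) * (6 + c) * (3 / γ ^ 2 + 2) with hC
  refine ⟨a, max C 1, ha1, le_max_right _ _, ?_⟩
  intro n K L hKc hK hKsymm hL hLclosed hL0 hLsymm
  classical
  obtain ⟨ctr, hctr⟩ := exists_cover (isCompact_polar hL0)
    ((set_smul_mem_nhds_zero_iff (inv_ne_zero (by linarith : a ≠ 0))).2
      (polar_mem_nhds hKc.isBounded))
  generalize coveringNumber (polar L) (a⁻¹ • polar K) = m at ctr hctr ⊢
  have hpiece : ∀ φ ∈ polar L, ∃ i, φ - ctr i ∈ a⁻¹ • polar K :=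
    fun φ hφ => mem_iUnion.1 (hctr hφ)
  have hm : 1 ≤ m := by
    obtain ⟨i, _⟩ := hpiece 0 (zero_mem_polar L)
    exact i.pos
  have hmR0 : (1:ℝ) ≤ m := by exact_mod_cast hm
  have hδ1 : δ ≤ 1 := by rw [hδ]; linarith
  have hrange : ∀ φ ∈ polar L, ∀ x ∈ K, |pair x φ| ≤ m :=
    fun φ hφ x hx => range_le hKsymm hLsymm hδ0 hδ1 ha hm hpiece hφ hx
  obtain ⟨T, hT1, hTcard, hTmem, hTmax, hTsum⟩ :=
    exists_nets hKsymm hLsymm hδ0 hδ1 ha hc hpiece
  rcases Nat.lt_or_ge m 2 with hm2 | hm2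
  · obtain rfl : m = 1 := by omega
    have : coveringNumber K L ≤ 1 := by
      refine Nat.sInf_le ⟨fun _ => 0, fun x hx => mem_iUnion.2 ⟨0, ?_⟩⟩
      show x - 0 ∈ L
      rw [sub_zero, ← one_smul ℝ L]
      exact mem_smul_of_pair_le hL hLclosed (mem_of_mem_nhds hL0) one_pos
        (fun φ hφ => (le_abs_self _).trans (by simpa [pair] using hrange φ hφ x hx))
    interval_cases coveringNumber K L <;> simp
  have hmR : (2:ℝ) ≤ m := by exact_mod_cast hm2
  set ℓ := Real.log (m:ℝ) with hℓ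
  have hℓ2 : Real.log 2 ≤ ℓ := Real.log_le_log two_pos hmR
  have hlog2 := Real.log_two_gt_d9
  have hℓ0 : 0 < ℓ := by linarith
  have hlog4 : Real.log 4 = 2 * Real.log 2 := by
    rw [show (4:ℝ) = 2 ^ 2 by norm_num, Real.log_pow]; norm_num
  set Q := ⌈(3 * ℓ / γ ^ 2) ^ ((J:ℝ)⁻¹)⌉₊ with hQ
  have hy : 0 < 3 * ℓ / γ ^ 2 := by positivity
  have hQ1 : 1 ≤ Q := Nat.one_le_iff_ne_zero.2 (by
    rw [hQ, Ne, Nat.ceil_eq_zero, not_le]
    exact Real.rpow_pos_of_pos hy _)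
  have hQJ : 3 * ℓ ≤ γ ^ 2 * (Q:ℝ) ^ J := by
    have h : ((3 * ℓ / γ ^ 2) ^ ((J:ℝ)⁻¹)) ^ J ≤ (Q:ℝ) ^ J :=
      pow_le_pow_left₀ (Real.rpow_nonneg hy.le _) (Nat.le_ceil _) _
    rw [Real.rpow_inv_natCast_pow hy.le (by omega), div_le_iff₀ (by positivity)] at h
    linarith
  set W : ℝ := 3 * J * Q * (128 / γ ^ 2 + 3) with hW
  let U : ℕ → ℕ := fun j => ⌊Real.exp (W * Real.log (4 * (T j).card))⌋₊
  have hcovN : coveringNumber K L ≤ ∏ i ∈ Finset.range (Nat.log 2 m + 1), U i := by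
    refine coveringNumber_le_prod hL hLclosed hL0 hLsymm hrange U
      fun j S hSK hx0 hSsep => ?_
    have hQT : Real.log (4 * ((T j).card : ℝ)) ≤ γ ^ 2 * (Q:ℝ) ^ J := by
      refine le_trans ?_ hQJ
      rw [Real.log_mul (by norm_num) (by exact_mod_cast Nat.one_le_iff_ne_zero.1 (hT1 j)), hlog4]
      have : Real.log ((T j).card : ℝ) ≤ ℓ :=
        Real.log_le_log (by exact_mod_cast hT1 j) (by exact_mod_cast hTcard j)
      linarith
    have hlogS := piece_card_le hK hKsymm hL hLclosed hL0 hLsymm hJ hQ1 hγ hδ j (T j) (hT1 j)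
      (hTmem j) (hTmax j) hQT S hSK hx0 hSsep
    rcases Nat.eq_zero_or_pos S.card with h0 | h0
    · omega
    refine Nat.le_floor ?_
    calc (S.card : ℝ) = Real.exp (Real.log S.card) :=
          (Real.exp_log (by exact_mod_cast h0)).symm
      _ ≤ _ := Real.exp_le_exp.2 (hlogS.trans (le_of_eq (by rw [hW]; ring)))
  set d := Nat.log 2 m + 1 with hd
  have hdR : (d:ℝ) ≤ 3 * ℓ := by
    have h1 : ((2:ℝ) ^ Nat.log 2 m) ≤ m := by
      exact_mod_cast Nat.pow_log_le_self 2 (by omega : m ≠ 0)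
    have h2 := Real.log_le_log (by positivity) h1
    rw [Real.log_pow] at h2
    rw [hd]; push_cast
    nlinarith
  have hsum := hTsum d
  have hW0 : 0 ≤ W := by positivity
  have hlogN : Real.log (coveringNumber K L) ≤ W * ((6 + c) * ℓ) := by
    rcases Nat.eq_zero_or_pos (coveringNumber K L) with h0 | h0
    · rw [h0, Nat.cast_zero, Real.log_zero]; positivity
    have h1 : (coveringNumber K L : ℝ) ≤
        ∏ i ∈ Finset.range d, Real.exp (W * Real.log (4 * (T i).card)) := by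
      refine le_trans (Nat.cast_le.2 hcovN) ?_
      push_cast
      exact Finset.prod_le_prod (fun i _ => Nat.cast_nonneg _)
        (fun i _ => Nat.floor_le (Real.exp_pos _).le)
    rw [← Real.exp_sum] at h1
    have h2 := Real.log_le_log (by exact_mod_cast h0) h1
    rw [Real.log_exp, ← Finset.mul_sum] at h2
    refine h2.trans (mul_le_mul_of_nonneg_left ?_ hW0)
    have e : ∀ j, Real.log (4 * ((T j).card : ℝ)) = Real.log 4 + Real.log ((T j).card : ℝ) :=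
      fun j => Real.log_mul (by norm_num) (by exact_mod_cast Nat.one_le_iff_ne_zero.1 (hT1 j))
    simp only [e, Finset.sum_add_distrib, Finset.sum_const, Finset.card_range, nsmul_eq_mul]
    have := Real.log_two_lt_d9
    have h3 : (d:ℝ) * Real.log 4 ≤ d * 2 :=
      mul_le_mul_of_nonneg_left (by linarith) (Nat.cast_nonneg _)
    linarith
  have hQle : (Q:ℝ) ≤ (3 / γ ^ 2 + 2) * ℓ ^ ((J:ℝ)⁻¹) := by
    have hJinv : (J:ℝ)⁻¹ ≤ 1 := inv_le_one_of_one_le₀ (by exact_mod_cast hJ)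
    have hJinv0 : (0:ℝ) ≤ (J:ℝ)⁻¹ := by positivity
    have h1 := (Nat.ceil_lt_add_one (Real.rpow_nonneg hy.le ((J:ℝ)⁻¹))).le
    have h2 : (3 * ℓ / γ ^ 2) ^ ((J:ℝ)⁻¹) ≤ 3 / γ ^ 2 * ℓ ^ ((J:ℝ)⁻¹) := by
      rw [show 3 * ℓ / γ ^ 2 = 3 / γ ^ 2 * ℓ by ring, Real.mul_rpow (by positivity) hℓ0.le]
      refine mul_le_mul_of_nonneg_right ?_ (Real.rpow_nonneg hℓ0.le _)
      have h3 : (1:ℝ) ≤ 3 / γ ^ 2 := by
        rw [le_div_iff₀ (by positivity)]; nlinarith
      calc (3 / γ ^ 2) ^ ((J:ℝ)⁻¹) ≤ (3 / γ ^ 2) ^ (1:ℝ) :=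
            Real.rpow_le_rpow_of_exponent_le h3 hJinv
        _ = _ := Real.rpow_one _
    have h4 : (1 / 2 : ℝ) ≤ ℓ ^ ((J:ℝ)⁻¹) :=
      le_trans (Real.self_le_rpow_of_le_one (by norm_num) (by norm_num) hJinv)
        (Real.rpow_le_rpow (by norm_num) (by linarith) hJinv0)
    refine le_trans h1 ?_
    rw [add_mul]
    linarith
  refine hlogN.trans (le_trans ?_ (mul_le_mul_of_nonneg_right (le_max_left C 1)
    (mul_nonneg hℓ0.le (Real.rpow_nonneg hℓ0.le _))))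
  rw [hW, hC]
  calc 3 * (J:ℝ) * Q * (128 / γ ^ 2 + 3) * ((6 + c) * ℓ)
      = 3 * (J:ℝ) * (128 / γ ^ 2 + 3) * (6 + c) * ℓ * Q := by ring
    _ ≤ 3 * (J:ℝ) * (128 / γ ^ 2 + 3) * (6 + c) * ℓ *
        ((3 / γ ^ 2 + 2) * ℓ ^ ((J:ℝ)⁻¹)) := mul_le_mul_of_nonneg_left hQle (by positivity)
    _ = _ := by ring

end Vale.Agent.P126
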